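import Vale.Agent.P076.H732.FinDefs2
import Mathlib.Tactic.Positivity

/-!
# P076 / BG / FIN : assembly (helper245)

`fin_of : StSEL → StGEO → StRAT → StRSG → StFIN`.
-/

set_option autoImplicit false

namespace Vale.Agent.P076.H245

open Vale.Agent.P076.H732 Finset

theorem two_le {x y : ℝ} (h : x ≤ y) : (2:ℝ) ^ x ≤ 2 ^ y := Real.rpow_le_rpow_of_exponent_le (by norm_num) h

theorem GReg.mono {kp E E' : ℝ} {N m : ℕ} {X : Finset ℤ} (h : GReg kp E N m X) (hE : E ≤ E') : GReg kp E' N m X where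
  bd := fun x hx => (h.bd x hx).trans (two_le (by
    refine mul_le_mul_of_nonneg_right (mul_le_mul_of_nonneg_right (by linarith) ?_) ?_ <;> positivity))
  up := fun j hj c => (h.up j hj c).trans (two_le (by
    refine mul_le_mul_of_nonneg_right ?_ (by positivity)
    have := mul_le_mul_of_nonneg_right hE (Nat.cast_nonneg N : (0:ℝ) ≤ N)
    linarith))
  cov := fun j hj => (h.cov j hj).trans (two_le (by
    refine mul_le_mul_of_nonneg_right ?_ (by positivity)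
    have := mul_le_mul_of_nonneg_right hE (Nat.cast_nonneg N : (0:ℝ) ≤ N)
    linarith))

theorem card_popu_le {kp E : ℝ} {N m : ℕ} {X : Finset ℤ} (h : GReg kp E N m X) :
    (X.card : ℝ) ≤ (2:ℝ) ^ ((kp + E) * N * m) := by
  classical
  have h1 := h.cov N le_rfl
  have h2 : (X.image fun x => x / 2 ^ ((N - N) * m)) = X := by
    have : (fun x : ℤ => x / 2 ^ ((N - N) * m)) = id := by
      funext x
      rw [Nat.sub_self, zero_mul, pow_zero, Int.ediv_one]
      rfl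
    rw [this, Finset.image_id]
  have h3 : (X.image fun x => x / 2 ^ ((N - N) * m)).card = X.card := by rw [h2]
  calc (X.card : ℝ) = ((X.image fun x => x / 2 ^ ((N - N) * m)).card : ℝ) := by rw [h3]
    _ ≤ (2:ℝ) ^ ((kp * N + E * N) * m) := by
        exact h1
    _ = _ := by
        congr 1
        ring

theorem mem_popu {x : Z3 → ℤ} {S : Finset Z3} {lam : ℝ} {p : Z3} (hp : p ∈ S) (h : x p ∉ popu x S lam) :
    ((S.filter fun p' => x p' = x p).card : ℝ) < lam := by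
  classical
  by_contra hcon
  push Not at hcon
  apply h
  unfold popu
  rw [Finset.mem_filter]
  exact ⟨Finset.mem_image.2 ⟨p, hp, rfl⟩, hcon⟩

/-- most points of `S` have popular coordinates -/
theorem card_good {S Sz : Finset Z3} {x y q : Z3 → ℤ} {lam B : ℝ} (hS : S ⊆ Sz)
    (hx : ((Sz.filter fun p => ((Sz.filter fun p' => x p' = x p).card : ℝ) < lam).card : ℝ) ≤ B)
    (hy : ((Sz.filter fun p => ((Sz.filter fun p' => y p' = y p).card : ℝ) < lam).card : ℝ) ≤ B)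
    (hq : ((S.filter fun p => ((S.filter fun p' => q p' = q p).card : ℝ) < lam).card : ℝ) ≤ B) :
    (S.card : ℝ) ≤ ((S.filter fun p => x p ∈ popu x Sz lam ∧ y p ∈ popu y Sz lam ∧ q p ∈ popu q S lam).card : ℝ) + 3 * B := by
  classical
  have hsub : S ⊆ (S.filter fun p => x p ∈ popu x Sz lam ∧ y p ∈ popu y Sz lam ∧ q p ∈ popu q S lam) ∪
      ((Sz.filter fun p => ((Sz.filter fun p' => x p' = x p).card : ℝ) < lam) ∪
      ((Sz.filter fun p => ((Sz.filter fun p' => y p' = y p).card : ℝ) < lam) ∪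
      (S.filter fun p => ((S.filter fun p' => q p' = q p).card : ℝ) < lam))) := by
    intro p hp
    simp only [Finset.mem_union]
    by_cases h1 : x p ∈ popu x Sz lam
    · by_cases h2 : y p ∈ popu y Sz lam
      · by_cases h3 : q p ∈ popu q S lam
        · exact Or.inl (Finset.mem_filter.2 ⟨hp, h1, h2, h3⟩)
        · exact Or.inr (Or.inr (Or.inr (Finset.mem_filter.2 ⟨hp, mem_popu hp h3⟩)))
      · exact Or.inr (Or.inr (Or.inl (Finset.mem_filter.2 ⟨hS hp, mem_popu (hS hp) h2⟩)))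
    · exact Or.inr (Or.inl (Finset.mem_filter.2 ⟨hS hp, mem_popu (hS hp) h1⟩))
  have h1 := Finset.card_le_card hsub
  have h2 := h1.trans (Finset.card_union_le _ _)
  have h3 := h2.trans (Nat.add_le_add_left (Finset.card_union_le _ _) _)
  have h4 := h3.trans (Nat.add_le_add_left (Nat.add_le_add_left (Finset.card_union_le _ _) _) _)
  have h5 : (S.card : ℝ) ≤ ((S.filter fun p => x p ∈ popu x Sz lam ∧ y p ∈ popu y Sz lam ∧ q p ∈ popu q S lam).card : ℝ) +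
      (((Sz.filter fun p => ((Sz.filter fun p' => x p' = x p).card : ℝ) < lam).card : ℝ) +
      (((Sz.filter fun p => ((Sz.filter fun p' => y p' = y p).card : ℝ) < lam).card : ℝ) +
      ((S.filter fun p => ((S.filter fun p' => q p' = q p).card : ℝ) < lam).card : ℝ))) := by exact_mod_cast h4
  linarith

/-- the graphs and the centres -/
theorem core {ι : Type} {J : Finset ι} {S : ι → Finset Z3} {Sz : Finset Z3} {x y : Z3 → ℤ} {q : ι → Z3 → ℤ}
    {lx ly : Z3 → ℝ} {lq : ι → Z3 → ℝ} {al be : ι → ℝ} {lam B A s M : ℝ} (hS : ∀ t ∈ J, S t ⊆ Sz)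
    (hx : ∀ p, |(x p : ℝ) - lx p| ≤ 1) (hy : ∀ p, |(y p : ℝ) - ly p| ≤ 1) (hq : ∀ t p, |lq t p - (q t p : ℝ)| ≤ 1)
    (hlin : ∀ t ∈ J, ∀ p, lq t p = be t * (lx p + al t * ly p)) (hA : 0 < A) (hal : ∀ t ∈ J, |al t| ≤ A)
    (hbe : ∀ t ∈ J, A⁻¹ ≤ |be t|) (hs : 0 ≤ s) (hM : 0 < M)
    (ux : ((Sz.filter fun p => ((Sz.filter fun p' => x p' = x p).card : ℝ) < lam).card : ℝ) ≤ B)
    (uy : ((Sz.filter fun p => ((Sz.filter fun p' => y p' = y p).card : ℝ) < lam).card : ℝ) ≤ B)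
    (uq : ∀ t ∈ J, (((S t).filter fun p => (((S t).filter fun p' => q t p' = q t p).card : ℝ) < lam).card : ℝ) ≤ B)
    (hB : 3 * B ≤ s / 2) (hc : ∀ t ∈ J, s ≤ ((S t).card : ℝ))
    (hT : ∀ t ∈ J, ∀ T ⊆ S t, (T.card : ℝ) ^ 2 ≤ M * ((T.image fun p => (x p, y p)).card : ℝ)) :
    ∃ (G : ι → Finset (ℤ × ℤ)) (W : ι → Finset ℝ), ∀ t ∈ J,
      (∀ z ∈ G t, z.1 ∈ popu x Sz lam ∧ z.2 ∈ popu y Sz lam) ∧ (s / 2) ^ 2 ≤ M * ((G t).card : ℝ) ∧
      ((W t).card : ℝ) ≤ ((popu (q t) (S t) lam).card : ℝ) ∧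
      ∀ z ∈ G t, ∃ w ∈ W t, |(z.1 : ℝ) + al t * z.2 - w| ≤ 1 + 2 * A := by
  classical
  refine ⟨fun t => ((S t).filter fun p => x p ∈ popu x Sz lam ∧ y p ∈ popu y Sz lam ∧ q t p ∈ popu (q t) (S t) lam).image
    fun p => (x p, y p), fun t => (popu (q t) (S t) lam).image fun u : ℤ => (u : ℝ) / be t, fun t ht => ⟨?_, ?_, ?_, ?_⟩⟩
  · intro z hz
    rw [Finset.mem_image] at hz
    obtain ⟨p, hp, rfl⟩ := hz
    have := (Finset.mem_filter.1 hp).2
    exact ⟨this.1, this.2.1⟩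
  · have h1 := card_good (hS t ht) ux uy (uq t ht)
    have h2 := hT t ht _ (Finset.filter_subset (fun p => x p ∈ popu x Sz lam ∧ y p ∈ popu y Sz lam ∧
      q t p ∈ popu (q t) (S t) lam) (S t))
    refine le_trans (pow_le_pow_left₀ (by positivity) ?_ 2) h2
    have := hc t ht
    linarith
  · exact_mod_cast Finset.card_image_le
  · intro z hz
    rw [Finset.mem_image] at hz
    obtain ⟨p, hp, rfl⟩ := hz
    have hp' := Finset.mem_filter.1 hp
    refine ⟨(q t p : ℝ) / be t, Finset.mem_image.2 ⟨_, hp'.2.2.2, rfl⟩, ?_⟩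
    have b0 : 0 < |be t| := lt_of_lt_of_le (inv_pos.2 hA) (hbe t ht)
    have b1 : be t ≠ 0 := abs_pos.1 b0
    have s2 : lx p + al t * ly p = lq t p / be t := by
      rw [eq_div_iff b1, mul_comm]
      exact (hlin t ht p).symm
    have e1 : (x p : ℝ) + al t * (y p : ℝ) - (q t p : ℝ) / be t =
        ((x p : ℝ) - lx p) + al t * ((y p : ℝ) - ly p) + (lq t p - (q t p : ℝ)) / be t := by
      rw [sub_div, ← s2]
      ring
    have e3 : |(lq t p - (q t p : ℝ)) / be t| ≤ A := by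
      rw [abs_div, div_le_iff₀ b0]
      have a1 := hq t p
      have a2 : A * A⁻¹ ≤ A * |be t| := mul_le_mul_of_nonneg_left (hbe t ht) hA.le
      rw [mul_inv_cancel₀ hA.ne'] at a2
      linarith
    have e4 : |al t * ((y p : ℝ) - ly p)| ≤ A * 1 := by
      rw [abs_mul]
      exact mul_le_mul (hal t ht) (hy p) (abs_nonneg _) hA.le
    show |(x p : ℝ) + al t * (y p : ℝ) - (q t p : ℝ) / be t| ≤ 1 + 2 * A
    rw [e1]
    have e5 := abs_add_le (((x p : ℝ) - lx p) + al t * ((y p : ℝ) - ly p)) ((lq t p - (q t p : ℝ)) / be t)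
    have e6 := abs_add_le ((x p : ℝ) - lx p) (al t * ((y p : ℝ) - ly p))
    have e7 := hx p
    linarith

theorem abs_xf (u w : Fin 2 → ℝ) (p : Z3) : |(xf u w p : ℝ) - lf u w p| ≤ 1 := by
  have a1 := Int.floor_le (lf u w p)
  have a2 := Int.lt_floor_add_one (lf u w p)
  unfold xf
  rw [abs_le]
  constructor <;> linarith

/-- the Frostman property of the multipliers -/
theorem frost {ι : Type} {J : Finset ι} {v : ι → Fin 2 → ℝ} {al : ι → ℝ} {t₃ : ι} {E N m C C' sg Er : ℝ} {n : ℕ}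
    (hm : 0 ≤ m) (hsg : 0 ≤ sg) (hC : 0 ≤ C) (hC' : 0 ≤ C') (hE : 0 ≤ E * N) (hE1 : 1 ≤ E * N)
    (h0 : (sg * (C' + 1) + C) * E * N ≤ Er * N)
    (hpen : ∀ j ≤ n, ∀ ϑ : ℝ, ((J.filter fun t => |nc ϑ (v t - v t₃)| ≤ (2:ℝ) ^ (-((j : ℝ) * m))).card : ℝ) ≤
        (2:ℝ) ^ ((-(sg * j) + C * E * N) * m) * J.card)
    (u ϑ : ℝ) (hϑ : ∀ t ∈ J, ∀ r : ℝ, |al t - u| ≤ r → |nc ϑ (v t - v t₃)| ≤ (2:ℝ) ^ (C' * (E * N * m)) * r)
    {j : ℕ} (hj : j ≤ n) :
    ((J.filter fun i => |al i - u| ≤ (2:ℝ) ^ (-((j:ℝ) * m))).card : ℝ) ≤ (2:ℝ) ^ ((-(sg * j) + Er * N) * m) * J.card := by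
  obtain ⟨w0, hw0⟩ : ∃ w0 : ℕ, w0 = ⌈C' * (E * N)⌉₊ := ⟨_, rfl⟩
  have hw1 : (w0:ℝ) ≤ C' * (E * N) + 1 := by
    rw [hw0]
    exact (Nat.ceil_lt_add_one (by positivity)).le
  have hw2 : C' * (E * N) ≤ w0 := by
    rw [hw0]
    exact Nat.le_ceil _
  have hfin : ∀ j' : ℕ, (j:ℝ) - w0 ≤ j' → (-(sg * j') + C * E * N) * m ≤ (-(sg * j) + Er * N) * m := by
    intro j' hj'
    refine mul_le_mul_of_nonneg_right ?_ hm
    have e1 : sg * ((j:ℝ) - w0) ≤ sg * j' := mul_le_mul_of_nonneg_left hj' hsg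
    have e2 : sg * (w0:ℝ) ≤ sg * (C' * (E * N) + 1) := mul_le_mul_of_nonneg_left hw1 hsg
    have e3 : sg * 1 ≤ sg * (E * N) := mul_le_mul_of_nonneg_left hE1 hsg
    linarith
  rcases le_or_gt w0 j with hjw | hjw
  · have e1 := hpen (j - w0) (by omega) ϑ
    have e2 : (J.filter fun i => |al i - u| ≤ (2:ℝ) ^ (-((j:ℝ) * m))) ⊆
        J.filter fun t => |nc ϑ (v t - v t₃)| ≤ (2:ℝ) ^ (-(((j - w0 : ℕ) : ℝ) * m)) := by
      intro t ht
      rw [Finset.mem_filter] at ht ⊢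
      refine ⟨ht.1, (hϑ t ht.1 _ ht.2).trans ?_⟩
      rw [← Real.rpow_add (by norm_num)]
      refine two_le ?_
      rw [Nat.cast_sub hjw]
      have := mul_le_mul_of_nonneg_right hw2 hm
      linarith
    have e3 : ((J.filter fun i => |al i - u| ≤ (2:ℝ) ^ (-((j:ℝ) * m))).card : ℝ) ≤
        ((J.filter fun t => |nc ϑ (v t - v t₃)| ≤ (2:ℝ) ^ (-(((j - w0 : ℕ) : ℝ) * m))).card : ℝ) := by
      exact_mod_cast Finset.card_le_card e2
    refine e3.trans (e1.trans ?_)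
    exact mul_le_mul_of_nonneg_right (two_le (hfin _ (by rw [Nat.cast_sub hjw]))) (Nat.cast_nonneg _)
  · have e1 : ((J.filter fun i => |al i - u| ≤ (2:ℝ) ^ (-((j:ℝ) * m))).card : ℝ) ≤ J.card := by
      exact_mod_cast Finset.card_le_card (Finset.filter_subset _ _)
    have e2 := hfin 0 (by
      have : (j:ℝ) ≤ w0 := by exact_mod_cast hjw.le
      push_cast
      linarith)
    have e3 : (0:ℝ) ≤ (-(sg * j) + Er * N) * m := by
      refine le_trans ?_ e2
      push_cast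
      have : 0 ≤ C * (E * N) * m := by positivity
      linarith
    have e4 : (1:ℝ) ≤ 2 ^ ((-(sg * j) + Er * N) * m) := by
      calc (1:ℝ) = 2 ^ (0:ℝ) := by rw [Real.rpow_zero]
        _ ≤ _ := two_le e3
    have e5 : (0:ℝ) ≤ J.card := Nat.cast_nonneg _
    nlinarith

end Vale.Agent.P076.H245
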