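import Vale.Agent.P076.H245.FinAsm

/-!
# P076 / BG / FIN : the finite window lemma from its four parts (helper245)

`fin_of : StSEL → StGEO → StRAT → StRSG → StFIN`.
-/

set_option autoImplicit false

namespace Vale.Agent.P076.H245

open Vale.Agent.P076.H732 Finset

/-- one configuration -/
theorem fin_one {a b C C₁ C₂ CR sg Er E : ℝ} {N m : ℕ} {kp d : ℝ} (hC : 0 < C) (hsg : 0 < sg) (hC₁1 : 1 ≤ C₁)
    (hC₁C : C ≤ C₁) (hC₂ : C₁ ≤ C₂) (hCR : 1 ≤ CR) (hE0 : 0 < E) (hEN : 1 ≤ E * N) (hm : (2:ℝ) ≤ m)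
    (b1 : (2 * (C + C₂ + 2) + C₂) * E ≤ Er) (b2 : (2 * C + C₂ + 2) * E ≤ Er) (b3 : (CR + 2) * C₁ * E ≤ Er)
    (b4 : (sg * (CR * C₁ + 1) + C) * E ≤ Er) (ha : a ≤ kp) (hb : kp ≤ b)
    {ι : Type} {P : Finset Z3} {Th : Finset ι} {v : ι → Fin 2 → ℝ} {μ : Z3 → ι → ℝ} (hCfg : Cfg kp E d N m P Th v μ)
    (hG : ∀ (S : Finset Z3) (a b c : ι) (g : ℝ), S ⊆ P → a ∈ Th → b ∈ Th → c ∈ Th →
      (∀ p ∈ S, μ p a ≠ 0 ∧ μ p b ≠ 0 ∧ μ p c ≠ 0) → (2:ℝ) ^ (-(C₁ * E * N * m)) ≤ |tri (v a) (v b) (v c)| → 0 ≤ g →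
      ((S.filter fun p => ((S.filter fun p' => xf (v b) (v c) p' = xf (v b) (v c) p).card : ℝ) <
        (2:ℝ) ^ ((2 * kp - g) * N * m)).card : ℝ) ≤ (2:ℝ) ^ ((3 * kp - g / 2 + C₂ * E) * N * m) ∧
      GReg kp (g + C₂ * E) N m (popu (xf (v b) (v c)) S ((2:ℝ) ^ ((2 * kp - g) * N * m))) ∧
      (S.card : ℝ) ^ 2 ≤ (2:ℝ) ^ ((4 * kp + C₂ * E) * N * m) *
        ((S.image fun p => (xf (v b) (v c) p, xf (v a) (v c) p)).card : ℝ))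
    (hR : ∀ (Λ : ℝ) (u₁ u₂ u₃ : Fin 2 → ℝ), 2 ≤ Λ → (∀ i, |u₁ i| ≤ Λ) → (∀ i, |u₂ i| ≤ Λ) →
      (∀ i, |u₃ i| ≤ Λ) → Λ⁻¹ ≤ |tri u₁ u₂ u₃| →
      (∀ w, Ok4 Λ u₁ u₂ u₃ w → Λ ^ (-CR) ≤ |alf u₁ u₂ u₃ w| ∧ |alf u₁ u₂ u₃ w| ≤ Λ ^ CR ∧ Λ ^ (-CR) ≤ |bef u₁ u₂ u₃ w| ∧
        ∀ p, lf w u₃ p = bef u₁ u₂ u₃ w * (lf u₂ u₃ p + alf u₁ u₂ u₃ w * lf u₁ u₃ p)) ∧
      ∀ x : ℝ, ∃ ϑ : ℝ, ∀ (w : Fin 2 → ℝ) (r : ℝ), Ok4 Λ u₁ u₂ u₃ w → |alf u₁ u₂ u₃ w - x| ≤ r → |nc ϑ (w - u₃)| ≤ Λ ^ CR * r)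
    (hT : ∀ {ι : Type} (X Y : Finset ℤ) (J : Finset ι) (al : ι → ℝ)
      (G : ι → Finset (ℤ × ℤ)) (W : ι → Finset ℝ), GReg kp Er N m X → GReg kp Er N m Y → J.Nonempty →
      (∀ i ∈ J, (2:ℝ) ^ (-(Er * N * m)) ≤ |al i| ∧ |al i| ≤ (2:ℝ) ^ (Er * N * m)) →
      (∀ j ≤ N, ∀ x : ℝ, ((J.filter fun i => |al i - x| ≤ (2:ℝ) ^ (-((j : ℝ) * m))).card : ℝ) ≤
        (2:ℝ) ^ ((-(sg * j) + Er * N) * m) * J.card) →
      (∀ i ∈ J, (∀ z ∈ G i, z.1 ∈ X ∧ z.2 ∈ Y) ∧ (2:ℝ) ^ ((2 * kp - Er) * N * m) ≤ ((G i).card : ℝ) ∧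
        ((W i).card : ℝ) ≤ (2:ℝ) ^ ((kp + Er) * N * m) ∧
        ∀ z ∈ G i, ∃ w ∈ W i, |(z.1 : ℝ) + al i * z.2 - w| ≤ (2:ℝ) ^ (Er * N * m)) → False)
    {t₁ t₂ t₃ : ι} {J : Finset ι} {S : ι → Finset Z3} (h1 : t₁ ∈ Th) (h2 : t₂ ∈ Th) (h3 : t₃ ∈ Th) (hJT : J ⊆ Th)
    (hJ : J.Nonempty) (htri : (2:ℝ) ^ (-(C * E * N * m)) ≤ |tri (v t₁) (v t₂) (v t₃)|)
    (hJt : ∀ t ∈ J, (2:ℝ) ^ (-(C * E * N * m)) ≤ |tri (v t₁) (v t) (v t₃)| ∧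
        (2:ℝ) ^ (-(C * E * N * m)) ≤ |tri (v t₂) (v t) (v t₃)| ∧
        (2:ℝ) ^ ((3 * kp - C * E) * N * m) ≤ ((S t).card : ℝ) ∧
        ∀ p ∈ S t, p ∈ P ∧ μ p t₁ ≠ 0 ∧ μ p t₂ ≠ 0 ∧ μ p t₃ ≠ 0 ∧ μ p t ≠ 0)
    (hpen : ∀ j ≤ N, ∀ ϑ : ℝ, ((J.filter fun t => |nc ϑ (v t - v t₃)| ≤ (2:ℝ) ^ (-((j : ℝ) * m))).card : ℝ) ≤
        (2:ℝ) ^ ((-(sg * j) + C * E * N) * m) * J.card) : False := by
  classical
  have hm0 : (0:ℝ) ≤ m := by linarith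
  have hZ2 : 2 ≤ E * N * m := by nlinarith
  have hZ0 : 0 ≤ E * N * m := by linarith
  have hC₁Z : C₁ * 1 ≤ C₁ * (E * N * m) := mul_le_mul_of_nonneg_left (by linarith) (by linarith)
  have hΛ2 : 2 ≤ (2:ℝ) ^ (C₁ * (E * N * m)) := by
    calc (2:ℝ) = 2 ^ (1:ℝ) := (Real.rpow_one 2).symm
      _ ≤ _ := two_le (by linarith)
  have hCZ : C * (E * N * m) ≤ C₁ * (E * N * m) := mul_le_mul_of_nonneg_right hC₁C hZ0
  have hvb : ∀ t ∈ Th, ∀ i, |v t i| ≤ (2:ℝ) ^ (C₁ * (E * N * m)) := fun t ht i =>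
    (hCfg.vb t ht i).trans (two_le (by nlinarith))
  have hinv : ∀ y : ℝ, (2:ℝ) ^ (-(C * E * N * m)) ≤ y → ((2:ℝ) ^ (C₁ * (E * N * m)))⁻¹ ≤ y := by
    intro y hy
    refine le_trans ?_ hy
    rw [← Real.rpow_neg (by norm_num)]
    exact two_le (by linarith)
  have hinv' : ∀ y : ℝ, (2:ℝ) ^ (-(C * E * N * m)) ≤ y → (2:ℝ) ^ (-(C₁ * E * N * m)) ≤ y := by
    intro y hy
    exact le_trans (two_le (by linarith)) hy
  have hΛp : ∀ y : ℝ, ((2:ℝ) ^ (C₁ * (E * N * m))) ^ y = (2:ℝ) ^ (y * C₁ * (E * N * m)) := by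
    intro y
    rw [← Real.rpow_mul (by norm_num)]
    congr 1
    ring
  obtain ⟨hR1, hR2⟩ := hR _ (v t₁) (v t₂) (v t₃) hΛ2 (hvb t₁ h1) (hvb t₂ h2) (hvb t₃ h3) (hinv _ htri)
  have hok : ∀ t ∈ J, Ok4 ((2:ℝ) ^ (C₁ * (E * N * m))) (v t₁) (v t₂) (v t₃) (v t) := fun t ht =>
    ⟨hvb t (hJT ht), hinv _ (hJt t ht).1, hinv _ (hJt t ht).2.1⟩
  simp only [hΛp] at hR1 hR2
  obtain ⟨g, hg⟩ : ∃ g : ℝ, g = 2 * (C + C₂ + 2) * E := ⟨_, rfl⟩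
  have hg0 : 0 ≤ g := by
    rw [hg]
    have : 0 ≤ C + C₂ + 2 := by linarith
    positivity
  have hgE : g + C₂ * E ≤ Er := by
    rw [hg]
    linarith
  have hSzm : ∀ p ∈ J.biUnion S, p ∈ P ∧ μ p t₁ ≠ 0 ∧ μ p t₂ ≠ 0 ∧ μ p t₃ ≠ 0 := by
    intro p hp
    rw [Finset.mem_biUnion] at hp
    obtain ⟨t, ht, hp⟩ := hp
    have := (hJt t ht).2.2.2 p hp
    exact ⟨this.1, this.2.1, this.2.2.1, this.2.2.2.1⟩
  have htri' : (2:ℝ) ^ (-(C₁ * E * N * m)) ≤ |tri (v t₂) (v t₁) (v t₃)| := by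
    have e1 : tri (v t₂) (v t₁) (v t₃) = - tri (v t₁) (v t₂) (v t₃) := by
      unfold tri cr
      ring
    rw [e1, abs_neg]
    exact hinv' _ htri
  obtain ⟨gx1, gx2, -⟩ := hG (J.biUnion S) t₁ t₂ t₃ g (fun p hp => (hSzm p hp).1) h1 h2 h3
    (fun p hp => (hSzm p hp).2) (hinv' _ htri) hg0
  obtain ⟨gy1, gy2, -⟩ := hG (J.biUnion S) t₂ t₁ t₃ g (fun p hp => (hSzm p hp).1) h2 h1 h3
    (fun p hp => ⟨(hSzm p hp).2.2.1, (hSzm p hp).2.1, (hSzm p hp).2.2.2⟩) htri' hg0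
  have gq := fun (t : ι) (ht : t ∈ J) =>
    hG (S t) t₁ t t₃ g (fun p hp => ((hJt t ht).2.2.2 p hp).1) h1 (hJT ht) h3
      (fun p hp => ⟨((hJt t ht).2.2.2 p hp).2.1, ((hJt t ht).2.2.2 p hp).2.2.2.2, ((hJt t ht).2.2.2 p hp).2.2.2.1⟩)
      (hinv' _ (hJt t ht).1) hg0
  have hB3 : 3 * (2:ℝ) ^ ((3 * kp - g / 2 + C₂ * E) * N * m) ≤ (2:ℝ) ^ ((3 * kp - C * E) * N * m) / 2 := by
    have e1 : (3 * kp - C * E) * N * m = (3 * kp - g / 2 + C₂ * E) * N * m + 2 * (E * N * m) := by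
      rw [hg]
      ring
    rw [e1, Real.rpow_add (by norm_num)]
    have e2 : (16:ℝ) ≤ 2 ^ (2 * (E * N * m)) := by
      calc (16:ℝ) = 2 ^ (4:ℝ) := by norm_num
        _ ≤ _ := two_le (by linarith)
    have hB0 : 0 < (2:ℝ) ^ ((3 * kp - g / 2 + C₂ * E) * N * m) := by positivity
    nlinarith
  have hA : (0:ℝ) < 2 ^ (CR * C₁ * (E * N * m)) := by positivity
  obtain ⟨G, W, hGW⟩ := core (J := J) (S := S) (Sz := J.biUnion S) (x := xf (v t₂) (v t₃)) (y := xf (v t₁) (v t₃))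
    (q := fun t => xf (v t) (v t₃)) (lx := lf (v t₂) (v t₃)) (ly := lf (v t₁) (v t₃)) (lq := fun t => lf (v t) (v t₃))
    (al := fun t => alf (v t₁) (v t₂) (v t₃) (v t)) (be := fun t => bef (v t₁) (v t₂) (v t₃) (v t))
    (lam := (2:ℝ) ^ ((2 * kp - g) * N * m)) (B := (2:ℝ) ^ ((3 * kp - g / 2 + C₂ * E) * N * m))
    (A := 2 ^ (CR * C₁ * (E * N * m))) (s := (2:ℝ) ^ ((3 * kp - C * E) * N * m))
    (M := (2:ℝ) ^ ((4 * kp + C₂ * E) * N * m)) (fun t ht => Finset.subset_biUnion_of_mem S ht) (abs_xf _ _) (abs_xf _ _)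
    (fun t p => by rw [abs_sub_comm]; exact abs_xf _ _ p) (fun t ht p => (hR1 (v t) (hok t ht)).2.2.2 p) hA
    (fun t ht => (hR1 (v t) (hok t ht)).2.1)
    (fun t ht => by
      rw [← Real.rpow_neg (by norm_num)]
      refine le_trans (le_of_eq ?_) (hR1 (v t) (hok t ht)).2.2.1
      congr 1
      ring)
    (by positivity) (by positivity) gx1 gy1 (fun t ht => (gq t ht).1) hB3 (fun t ht => (hJt t ht).2.2.1)
    (fun t ht T hT => (hG T t₁ t₂ t₃ g (fun p hp => ((hJt t ht).2.2.2 p (hT hp)).1) h1 h2 h3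
      (fun p hp => by
        have := (hJt t ht).2.2.2 p (hT hp)
        exact ⟨this.2.1, this.2.2.1, this.2.2.2.1⟩) (hinv' _ htri) hg0).2.2)
  have hNm : (0:ℝ) ≤ (N:ℝ) * m := by positivity
  refine hT _ _ J (fun t => alf (v t₁) (v t₂) (v t₃) (v t)) G W (GReg.mono gx2 hgE) (GReg.mono gy2 hgE) hJ
    (fun t ht => ?_) (fun j hj u => ?_) (fun t ht => ?_)
  · obtain ⟨r1, r2, -, -⟩ := hR1 (v t) (hok t ht)
    have e2 : CR * C₁ * (E * N * m) ≤ Er * N * m := by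
      have e4 : (CR + 2) * C₁ * E * (N * m) ≤ Er * (N * m) := mul_le_mul_of_nonneg_right b3 hNm
      have e5 : 0 ≤ C₁ * (E * N * m) := by positivity
      linarith
    exact ⟨le_trans (two_le (by linarith)) r1, r2.trans (two_le e2)⟩
  · obtain ⟨ϑ, hϑ⟩ := hR2 u
    refine frost (E := E) (C := C) (C' := CR * C₁) hm0 hsg.le hC.le (by positivity) (by linarith) hEN ?_ hpen u ϑ
      (fun t ht r hr => ?_) hj
    · exact mul_le_mul_of_nonneg_right b4 (Nat.cast_nonneg _)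
    · exact hϑ (v t) r (hok t ht) hr
  · obtain ⟨c1, c2, c3, c4⟩ := hGW t ht
    refine ⟨c1, ?_, ?_, fun z hz => ?_⟩
    · have g7 : ((2:ℝ) ^ ((3 * kp - C * E) * N * m) / 2) ^ 2 =
          (2:ℝ) ^ ((4 * kp + C₂ * E) * N * m) *
            (2:ℝ) ^ (2 * ((3 * kp - C * E) * N * m) - 2 - (4 * kp + C₂ * E) * N * m) := by
        rw [← Real.rpow_add (by norm_num), div_pow, ← Real.rpow_natCast, ← Real.rpow_mul (by norm_num)]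
        have : (4 * kp + C₂ * E) * N * m + (2 * ((3 * kp - C * E) * N * m) - 2 - (4 * kp + C₂ * E) * N * m) =
            (3 * kp - C * E) * N * m * ((2:ℕ):ℝ) - 2 := by
          push_cast
          ring
        rw [this, Real.rpow_sub (by norm_num)]
        congr 1
        norm_num
      rw [g7] at c2
      have g8 := le_of_mul_le_mul_left c2 (by positivity)
      refine le_trans (two_le ?_) g8
      have e2 : (2 * C + C₂ + 2) * E * (N * m) ≤ Er * (N * m) := mul_le_mul_of_nonneg_right b2 hNm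
      linarith
    · have e1 := card_popu_le (gq t ht).2.1
      refine c3.trans (e1.trans (two_le ?_))
      have e5 : (g + C₂ * E) * (N * m) ≤ Er * (N * m) := mul_le_mul_of_nonneg_right hgE hNm
      linarith
    · obtain ⟨w, hw, hw'⟩ := c4 z hz
      refine ⟨w, hw, hw'.trans ?_⟩
      have e5 : (1:ℝ) ≤ 2 ^ (CR * C₁ * (E * N * m)) := by
        calc (1:ℝ) = 2 ^ (0:ℝ) := by rw [Real.rpow_zero]
          _ ≤ _ := two_le (by positivity)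
      have e6 : (4:ℝ) ≤ 2 ^ (2 * (C₁ * (E * N * m))) := by
        calc (4:ℝ) = 2 ^ (2:ℝ) := by norm_num
          _ ≤ _ := two_le (by linarith)
      have e7 : (2:ℝ) ^ (CR * C₁ * (E * N * m)) * 2 ^ (2 * (C₁ * (E * N * m))) ≤ (2:ℝ) ^ (Er * N * m) := by
        rw [← Real.rpow_add (by norm_num)]
        refine two_le ?_
        have b5 : (CR + 2) * C₁ * E * (N * m) ≤ Er * (N * m) := mul_le_mul_of_nonneg_right b3 hNm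
        linarith
      nlinarith

/-- **the finite window lemma** -/
theorem fin_of (hS : StSEL) (hG : StGEO) (hR : StRAT) (hT : StRSG) : StFIN := by
  intro a b ha hab hb
  obtain ⟨C, sg, hC, hsg, hS⟩ := hS
  obtain ⟨C₂, hC₂, hG⟩ := hG (max C 1) (le_max_right _ _)
  obtain ⟨CR, hCR, hR⟩ := hR
  obtain ⟨Er, N₀, hEr, hT⟩ := hT a b sg ha hab hb hsg
  obtain ⟨C₁, hC₁⟩ : ∃ C₁ : ℝ, C₁ = max C 1 := ⟨_, rfl⟩
  rw [← hC₁] at hC₂ hG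
  have hC₁1 : 1 ≤ C₁ := by rw [hC₁]; exact le_max_right _ _
  have hC₁C : C ≤ C₁ := by rw [hC₁]; exact le_max_left _ _
  have k1 : 0 ≤ 2 * (C + C₂ + 2) + C₂ := by linarith
  have k2 : 0 ≤ 2 * C + C₂ + 2 := by linarith
  have k3 : 0 ≤ (CR + 2) * C₁ := by positivity
  have k4 : 0 ≤ sg * (CR * C₁ + 1) + C := by positivity
  obtain ⟨M, hM⟩ : ∃ M : ℝ, M = (2 * (C + C₂ + 2) + C₂) + (2 * C + C₂ + 2) + (CR + 2) * C₁ +
    (sg * (CR * C₁ + 1) + C) + Er + 1 := ⟨_, rfl⟩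
  have hM0 : 0 < M := by linarith
  obtain ⟨E, hE⟩ : ∃ E : ℝ, E = Er / M := ⟨_, rfl⟩
  have hE0 : 0 < E := by
    rw [hE]
    exact div_pos hEr hM0
  have hEM : E * M = Er := by
    rw [hE]
    exact div_mul_cancel₀ _ hM0.ne'
  have le_of : ∀ c : ℝ, c ≤ M → c * E ≤ Er := by
    intro c hc
    rw [← hEM, mul_comm]
    exact mul_le_mul_of_nonneg_left hc hE0.le
  have hE1 : E ≤ 1 := by
    rw [hE, div_le_one hM0]
    linarith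
  obtain ⟨N, hN⟩ : ∃ N : ℕ, N = max (max N₀ 1) ⌈1 / E⌉₊ := ⟨_, rfl⟩
  have hN0 : N₀ ≤ N := by rw [hN]; exact (le_max_left _ _).trans (le_max_left _ _)
  have hN1 : 1 ≤ N := by rw [hN]; exact (le_max_right _ _).trans (le_max_left _ _)
  have hEN : 1 ≤ E * N := by
    have h1 : 1 / E ≤ ⌈1 / E⌉₊ := Nat.le_ceil _
    have h2 : ((⌈1 / E⌉₊ : ℕ) : ℝ) ≤ N := by
      rw [hN]
      exact_mod_cast le_max_right _ _
    have h3 : 1 / E ≤ N := h1.trans h2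
    rw [div_le_iff₀ hE0] at h3
    linarith
  obtain ⟨m1, hS⟩ := hS E N hE0 hE1 hEN
  obtain ⟨m2, hG⟩ := hG E N hE0 hE1 hEN
  obtain ⟨m3, hT⟩ := hT N hN0 hN1
  refine ⟨E, N, max (max m1 m2) (max m3 2), hE0, hN1, ?_⟩
  intro m kp d hm hk1 hk2 ι P Th v μ hCfg
  have hm1 : m1 ≤ m := (le_max_left _ _).trans ((le_max_left _ _).trans hm)
  have hm2 : m2 ≤ m := (le_max_right _ _).trans ((le_max_left _ _).trans hm)
  have hm3 : m3 ≤ m := (le_max_left _ _).trans ((le_max_right _ _).trans hm)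
  have hm4 : 2 ≤ m := (le_max_right _ _).trans ((le_max_right _ _).trans hm)
  have hmr : (2:ℝ) ≤ m := by exact_mod_cast hm4
  have hkp0 : 0 ≤ kp := by linarith
  have hkp1 : kp ≤ 1 := by linarith
  obtain ⟨t₁, t₂, t₃, J, S, h1, h2, h3, hJT, hJ, htri, hJt, hpen⟩ := hS m kp d hm1 hkp0 P Th v μ hCfg
  exact fin_one hC hsg hC₁1 hC₁C hC₂ hCR hE0 hEN hmr (le_of _ (by linarith)) (le_of _ (by linarith))
    (le_of _ (by linarith)) (le_of _ (by linarith)) hk1 hk2 hCfg (hG m kp d hm2 hkp0 hkp1 P Th v μ hCfg) hR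
    (fun {ι} => hT m kp hm3 hk1 hk2) h1 h2 h3 hJT hJ htri hJt hpen

end Vale.Agent.P076.H245
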