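import Vale.Agent.P076.H732.FinDefs2
import Mathlib.Analysis.SpecialFunctions.Complex.Arg
import Mathlib.Tactic.LinearCombination
import Mathlib.Tactic.Positivity

/-!
# P076 / BG / FIN : the ratio of the coordinates of the fourth direction (helper245)

`rat : StRAT`.
-/

set_option autoImplicit false

namespace Vale.Agent.P076.H245

open Vale.Agent.P076.H732

theorem cr_bd {u v : Fin 2 → ℝ} {A B : ℝ} (hB : 0 ≤ B) (hu : ∀ i, |u i| ≤ A) (hv : ∀ i, |v i| ≤ B) :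
    |cr u v| ≤ 2 * (A * B) := by
  unfold cr
  have h1 : |u 0 * v 1| ≤ A * B := by
    rw [abs_mul]
    exact mul_le_mul (hu 0) (hv 1) (abs_nonneg _) ((abs_nonneg _).trans (hu 0))
  have h2 : |u 1 * v 0| ≤ A * B := by
    rw [abs_mul]
    exact mul_le_mul (hu 1) (hv 0) (abs_nonneg _) ((abs_nonneg _).trans (hu 1))
  have _ := hB
  exact (abs_sub _ _).trans (by linarith)

theorem sub_bd {u v : Fin 2 → ℝ} {L : ℝ} (hu : ∀ i, |u i| ≤ L) (hv : ∀ i, |v i| ≤ L) (i : Fin 2) :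
    |(u - v) i| ≤ 2 * L := by
  rw [Pi.sub_apply]
  exact (abs_sub _ _).trans (by linarith [hu i, hv i])

theorem exists_ang (V : Fin 2 → ℝ) : ∃ ϑ s : ℝ, 0 ≤ s ∧ V 0 = s * Real.cos ϑ ∧ V 1 = s * Real.sin ϑ := by
  refine ⟨Complex.arg ⟨V 0, V 1⟩, ‖(⟨V 0, V 1⟩ : ℂ)‖, norm_nonneg _, ?_, ?_⟩
  · rw [Complex.norm_mul_cos_arg]
  · rw [Complex.norm_mul_sin_arg]

/-- **[RAT]** -/
theorem rat : StRAT := by
  refine ⟨9, by norm_num, fun Λ u₁ u₂ u₃ hΛ h1 h2 h3 hD => ?_⟩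
  have hΛ0 : (0:ℝ) < Λ := by linarith
  have hΛ1 : (1:ℝ) ≤ Λ := by linarith
  have hp : Λ ^ (9:ℝ) = Λ ^ (9:ℕ) := by
    rw [← Real.rpow_natCast]
    norm_num
  have hn : Λ ^ (-(9:ℝ)) = (Λ ^ (9:ℕ))⁻¹ := by
    rw [Real.rpow_neg hΛ0.le, hp]
  have h8 : (8:ℝ) ≤ Λ ^ 3 := by
    calc (8:ℝ) = 2 ^ 3 := by norm_num
      _ ≤ Λ ^ 3 := pow_le_pow_left₀ (by norm_num) hΛ 3
  have hD0 : tri u₁ u₂ u₃ ≠ 0 := by
    intro h0
    rw [h0, abs_zero] at hD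
    exact absurd hD (not_le.2 (inv_pos.2 hΛ0))
  rw [hp, hn]
  -- bounds of the determinants
  have hcr : ∀ a b : Fin 2 → ℝ, (∀ i, |a i| ≤ Λ) → (∀ i, |b i| ≤ Λ) → |tri a b u₃| ≤ 8 * Λ ^ 2 := by
    intro a b ha hb
    have := cr_bd (by positivity : (0:ℝ) ≤ 2 * Λ) (sub_bd ha h3) (sub_bd hb h3)
    unfold tri
    calc _ ≤ 2 * (2 * Λ * (2 * Λ)) := this
      _ = 8 * Λ ^ 2 := by ring
  have hquo : ∀ a b : ℝ, Λ⁻¹ ≤ |a| → |b| ≤ 8 * Λ ^ 2 → b ≠ 0 → (Λ ^ (9:ℕ))⁻¹ ≤ |a / b| := by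
    intro a b ha hb hb0
    rw [abs_div, le_div_iff₀ (abs_pos.2 hb0)]
    have e1 : (Λ ^ (9:ℕ))⁻¹ * |b| ≤ (Λ ^ (9:ℕ))⁻¹ * (8 * Λ ^ 2) := mul_le_mul_of_nonneg_left hb (by positivity)
    have e2 : (Λ ^ (9:ℕ))⁻¹ * (8 * Λ ^ 2) ≤ Λ⁻¹ := by
      rw [inv_mul_le_iff₀ (by positivity)]
      have e3 : Λ ^ (9:ℕ) * Λ⁻¹ = Λ ^ 8 := by
        field_simp
      rw [e3]
      calc 8 * Λ ^ 2 ≤ Λ ^ 3 * Λ ^ 2 := mul_le_mul_of_nonneg_right h8 (by positivity)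
        _ = Λ ^ 5 := by ring
        _ ≤ Λ ^ 8 := pow_le_pow_right₀ hΛ1 (by norm_num)
    linarith
  refine ⟨fun w hw => ?_, fun x => ?_⟩
  · have q1 : tri u₁ w u₃ ≠ 0 := by
      intro h0
      have := hw.t1
      rw [h0, abs_zero] at this
      exact absurd this (not_le.2 (inv_pos.2 hΛ0))
    have q2 : |tri w u₂ u₃| = |tri u₂ w u₃| := by
      have : tri w u₂ u₃ = - tri u₂ w u₃ := by
        unfold tri cr
        ring
      rw [this, abs_neg]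
    refine ⟨hquo _ _ (by rw [q2]; exact hw.t2) (hcr _ _ h1 hw.bd) q1, ?_, hquo _ _ hw.t1 (hcr _ _ h1 h2) hD0, ?_⟩
    · unfold alf
      rw [abs_div, div_le_iff₀ (abs_pos.2 q1)]
      have e1 := hcr _ _ hw.bd h2
      have e2 : Λ ^ (9:ℕ) * Λ⁻¹ ≤ Λ ^ (9:ℕ) * |tri u₁ w u₃| := mul_le_mul_of_nonneg_left hw.t1 (by positivity)
      have e3 : Λ ^ (9:ℕ) * Λ⁻¹ = Λ ^ 8 := by
        field_simp
      rw [e3] at e2
      calc |tri w u₂ u₃| ≤ 8 * Λ ^ 2 := e1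
        _ ≤ Λ ^ 3 * Λ ^ 2 := mul_le_mul_of_nonneg_right h8 (by positivity)
        _ = Λ ^ 5 := by ring
        _ ≤ Λ ^ 8 := pow_le_pow_right₀ hΛ1 (by norm_num)
        _ ≤ _ := e2
    · intro p
      unfold alf bef
      have q3 : tri u₁ w u₃ / tri u₁ u₂ u₃ * (lf u₂ u₃ p + tri w u₂ u₃ / tri u₁ w u₃ * lf u₁ u₃ p) =
          (tri u₁ w u₃ * lf u₂ u₃ p + tri w u₂ u₃ * lf u₁ u₃ p) / tri u₁ u₂ u₃ := by
        field_simp
      rw [q3, eq_div_iff hD0]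
      unfold lf tri cr
      simp only [Pi.sub_apply]
      ring
  · -- the strip
    set V : Fin 2 → ℝ := fun i => (u₂ - u₃) i + x * (u₁ - u₃) i with hV
    obtain ⟨ϑ, s, hs, e0, e1⟩ := exists_ang V
    have hD' : tri u₁ u₂ u₃ = s * cr (u₁ - u₃) (fun i => if i = 0 then Real.cos ϑ else Real.sin ϑ) := by
      have : tri u₁ u₂ u₃ = cr (u₁ - u₃) V := by
        unfold tri cr
        simp only [hV]
        ring
      rw [this]
      unfold cr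
      rw [e0, e1]
      simp only [if_true, one_ne_zero, if_false]
      ring
    have hsl : Λ⁻¹ ≤ s * (4 * Λ) := by
      have a1 : |cr (u₁ - u₃) (fun i => if i = 0 then Real.cos ϑ else Real.sin ϑ)| ≤ 2 * (2 * Λ * 1) :=
        cr_bd (by norm_num) (sub_bd h1 h3) (fun i => by
          show |if i = 0 then Real.cos ϑ else Real.sin ϑ| ≤ 1
          split_ifs
          · exact Real.abs_cos_le_one _
          · exact Real.abs_sin_le_one _)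
      rw [hD', abs_mul, abs_of_nonneg hs] at hD
      calc Λ⁻¹ ≤ s * |cr (u₁ - u₃) (fun i => if i = 0 then Real.cos ϑ else Real.sin ϑ)| := hD
        _ ≤ s * (2 * (2 * Λ * 1)) := mul_le_mul_of_nonneg_left a1 hs
        _ = _ := by ring
    refine ⟨ϑ, fun w r hw hr => ?_⟩
    have hr0 : 0 ≤ r := (abs_nonneg _).trans hr
    have q1 : tri u₁ w u₃ ≠ 0 := by
      intro h0
      have := hw.t1
      rw [h0, abs_zero] at this
      exact absurd this (not_le.2 (inv_pos.2 hΛ0))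
    have k1 : |tri w u₂ u₃ - x * tri u₁ w u₃| ≤ r * (8 * Λ ^ 2) := by
      have : tri w u₂ u₃ - x * tri u₁ w u₃ = (alf u₁ u₂ u₃ w - x) * tri u₁ w u₃ := by
        unfold alf
        field_simp
      rw [this, abs_mul]
      exact mul_le_mul hr (hcr _ _ h1 hw.bd) (abs_nonneg _) hr0
    have k2 : tri w u₂ u₃ - x * tri u₁ w u₃ = -(s * nc ϑ (w - u₃)) := by
      have : tri w u₂ u₃ - x * tri u₁ w u₃ = cr (w - u₃) V := by
        unfold tri cr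
        simp only [hV]
        ring
      rw [this]
      unfold cr nc
      rw [e0, e1]
      ring
    rw [k2, abs_neg, abs_mul, abs_of_nonneg hs] at k1
    have k3 : Λ⁻¹ * |nc ϑ (w - u₃)| ≤ 4 * Λ * (r * (8 * Λ ^ 2)) := by
      calc Λ⁻¹ * |nc ϑ (w - u₃)| ≤ s * (4 * Λ) * |nc ϑ (w - u₃)| := mul_le_mul_of_nonneg_right hsl (abs_nonneg _)
        _ = 4 * Λ * (s * |nc ϑ (w - u₃)|) := by ring
        _ ≤ _ := mul_le_mul_of_nonneg_left k1 (by positivity)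
    rw [inv_mul_le_iff₀ hΛ0] at k3
    calc |nc ϑ (w - u₃)| ≤ Λ * (4 * Λ * (r * (8 * Λ ^ 2))) := k3
      _ = 32 * Λ ^ 4 * r := by ring
      _ ≤ Λ ^ 9 * r := by
          refine mul_le_mul_of_nonneg_right ?_ hr0
          have h32 : (32:ℝ) ≤ Λ ^ 5 := by
            calc (32:ℝ) = 2 ^ 5 := by norm_num
              _ ≤ Λ ^ 5 := pow_le_pow_left₀ (by norm_num) hΛ 5
          calc 32 * Λ ^ 4 ≤ Λ ^ 5 * Λ ^ 4 := mul_le_mul_of_nonneg_right h32 (by positivity)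
            _ = Λ ^ 9 := by ring

end Vale.Agent.P076.H245
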