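import Vale.Agent.P076.H245.FinOf
import Vale.Agent.P076.H245.Rat
import Vale.Agent.P076.H874.SelFin
import Vale.Agent.P076.H200.RSGF

/-!
# P076 / BG / FIN : only the geometric part `StGEO` remains (helper245)
-/

set_option autoImplicit false

namespace Vale.Agent.P076.H245

open Vale.Agent.P076.H732

theorem fin_of_geo (hG : StGEO) : StFIN := fin_of Vale.Agent.P076.H874.stSEL hG rat Vale.Agent.P076.H200.rsg

end Vale.Agent.P076.H245
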